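import Vale.Agent.P050.R3.H149.Ops

/-!
# P050, cycles with ears: the weight of the maps of an even cycle
-/

namespace Vale.Agent.P050.Ears

open Finset Matrix Vale.Agent.P050.Lev

/-- the sides of the vertices of an even cycle -/
def cycSide (s : Bool) (k : ℕ) (i : Fin (k + 1)) : Bool := xor s (decide (i.val % 2 = 1))

theorem cycSide_zero (s : Bool) (k : ℕ) : cycSide s k 0 = s := by
  simp [cycSide]

theorem cycSide_succ (s : Bool) {k : ℕ} (hk : (k + 1) % 2 = 0) (i : Fin (k + 1)) :
    cycSide s k (i + 1) = !cycSide s k i := by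
  unfold cycSide
  by_cases hi : i = Fin.last k
  · subst hi
    rw [Fin.last_add_one, Fin.val_last, Fin.val_zero]
    have h1 : k % 2 = 1 := by omega
    rw [h1]
    cases s <;> simp
  · have h1 : (i + 1).val = i.val + 1 :=
      Fin.val_add_one_of_lt (Fin.lt_last_iff_ne_last.2 hi)
    rw [h1]
    rcases Nat.mod_two_eq_zero_or_one i.val with h7 | h7
    · have h8 : (i.val + 1) % 2 = 1 := by omega
      rw [h7, h8]
      cases s <;> simp
    · have h8 : (i.val + 1) % 2 = 0 := by omega
      rw [h7, h8]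
      cases s <;> simp

theorem cyc_adj {k : ℕ} (hk : 1 ≤ k) (u v : Fin (k + 1)) :
    (SimpleGraph.cycleGraph (k + 1)).Adj u v ↔ (v = u + 1 ∨ u = v + 1) := by
  obtain ⟨n, rfl⟩ : ∃ n, k = n + 1 := ⟨k - 1, by omega⟩
  rw [SimpleGraph.cycleGraph_adj, sub_eq_iff_eq_add', sub_eq_iff_eq_add', or_comm]

theorem cycSide_proper (s : Bool) {k : ℕ} (hk1 : 1 ≤ k) (hk : (k + 1) % 2 = 0) :
    ∀ u v, (SimpleGraph.cycleGraph (k + 1)).Adj u v → cycSide s k u ≠ cycSide s k v := by
  intro u v h
  have h1 : ∀ w : Fin (k + 1), cycSide s k (w + 1) ≠ cycSide s k w := by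
    intro w
    rw [cycSide_succ s hk]
    cases cycSide s k w <;> simp
  rcases (cyc_adj hk1 u v).1 h with rfl | rfl
  · exact (h1 u).symm
  · exact h1 v

theorem succ_ne_pred {k : ℕ} (hk : 2 ≤ k) (u v : Fin (k + 1)) (h1 : v = u + 1) :
    u ≠ v + 1 := by
  intro h2
  rw [h1, add_assoc] at h2
  have h3 : (1 : Fin (k + 1)) + 1 = 0 := by
    have := h2.symm
    rwa [add_eq_left] at this
  have h4 := congrArg Fin.val h3
  rw [Fin.val_add, Fin.val_zero] at h4
  have h5 : ((1 : Fin (k + 1)) : ℕ) = 1 := by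
    rw [Fin.val_one']
    exact Nat.mod_eq_of_lt (by omega)
  rw [h5, Nat.mod_eq_of_lt (by omega)] at h4
  omega

open Classical in
theorem prod_cycle_aux (s : Bool) {k : ℕ} (hk2 : 2 ≤ k) (hk : (k + 1) % 2 = 0)
    (G : SimpleGraph (Fin (k + 1))) (hG : ∀ u v, G.Adj u v ↔ (v = u + 1 ∨ u = v + 1))
    (f : Fin (k + 1) → Fin (k + 1) → ℝ) (hf : ∀ x y, f x y = f y x) :
    ∏ e ∈ sideEdges G (cycSide s k), f e.1 e.2 = ∏ i, f i (i + 1) := by
  rw [prod_sideEdges]
  have hs := fun w : Fin (k + 1) => cycSide_succ s hk w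
  have h1 : ∀ u v : Fin (k + 1), (if G.Adj u v ∧
      cycSide s k u = false ∧ cycSide s k v = true then f u v else 1) =
      (if v = u + 1 then (if cycSide s k u = false then f u v else 1) else 1) *
        (if u = v + 1 then (if cycSide s k v = true then f u v else 1) else 1) := by
    intro u v
    by_cases h3 : v = u + 1
    · have h4 := succ_ne_pred hk2 u v h3
      rw [if_pos h3, if_neg h4, mul_one]
      refine if_congr ?_ rfl rfl
      rw [hG]
      constructor
      · exact fun h => h.2.1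
      · intro h
        refine ⟨Or.inl h3, h, ?_⟩
        rw [h3, hs, h]
        rfl
    · by_cases h4 : u = v + 1
      · rw [if_neg h3, if_pos h4, one_mul]
        refine if_congr ?_ rfl rfl
        rw [hG]
        constructor
        · exact fun h => h.2.2
        · intro h
          refine ⟨Or.inr h4, ?_, h⟩
          rw [h4, hs, h]
          rfl
      · rw [if_neg h3, if_neg h4, one_mul, if_neg]
        intro h
        rcases (hG u v).1 h.1 with h5 | h5
        · exact h3 h5
        · exact h4 h5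
  simp only [h1, Finset.prod_mul_distrib]
  have h2 : (∏ u : Fin (k + 1), ∏ v : Fin (k + 1),
      if v = u + 1 then (if cycSide s k u = false then f u v else 1) else 1) =
      ∏ u : Fin (k + 1), if cycSide s k u = false then f u (u + 1) else 1 := by
    refine Finset.prod_congr rfl fun u _ => ?_
    rw [Finset.prod_eq_single (u + 1)]
    · rw [if_pos rfl]
    · intro v _ hv
      exact if_neg hv
    · intro h3
      exact absurd (mem_univ _) h3
  have h3 : (∏ u : Fin (k + 1), ∏ v : Fin (k + 1),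
      if u = v + 1 then (if cycSide s k v = true then f u v else 1) else 1) =
      ∏ v : Fin (k + 1), if cycSide s k v = true then f v (v + 1) else 1 := by
    rw [Finset.prod_comm]
    refine Finset.prod_congr rfl fun v _ => ?_
    rw [Finset.prod_eq_single (v + 1)]
    · rw [if_pos rfl, hf]
    · intro u _ hu
      exact if_neg hu
    · intro h3
      exact absurd (mem_univ _) h3
  rw [h2, h3, ← Finset.prod_mul_distrib]
  refine Finset.prod_congr rfl fun i _ => ?_
  cases cycSide s k i <;> simp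

theorem prod_cycle (s : Bool) {k : ℕ} (hk2 : 2 ≤ k) (hk : (k + 1) % 2 = 0)
    (f : Fin (k + 1) → Fin (k + 1) → ℝ) (hf : ∀ x y, f x y = f y x) :
    ∏ e ∈ sideEdges (SimpleGraph.cycleGraph (k + 1)) (cycSide s k), f e.1 e.2 =
      ∏ i, f i (i + 1) :=
  prod_cycle_aux s hk2 hk _ (cyc_adj (by omega)) f hf

/-- closed walks change the side at each step -/
theorem cyc_sides {S : Type} [Fintype S] {A : Matrix S S ℝ} {μ : S → ℝ} {c : S → Bool}
    (h : Rev A μ c) {k : ℕ} (x : Fin (k + 1) → S) (hx : cyc A x ≠ 0) :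
    ∀ i, c (x i) = cycSide (c (x 0)) k i := by
  have h1 : ∀ i, c (x (i + 1)) = !c (x i) := by
    intro i
    have h2 : A (x i) (x (i + 1)) ≠ 0 := fun h3 =>
      hx (Finset.prod_eq_zero (mem_univ i) h3)
    have h3 : c (x i) ≠ c (x (i + 1)) := fun h4 => h2 (h.alt _ _ h4)
    cases h4 : c (x i) <;> cases h5 : c (x (i + 1)) <;> simp_all
  have h2 : ∀ n (hn : n < k + 1), c (x ⟨n, hn⟩) = xor (c (x 0)) (decide (n % 2 = 1)) := by
    intro n
    induction n with
    | zero =>
      intro hn
      have : (⟨0, hn⟩ : Fin (k + 1)) = 0 := rfl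
      rw [this]
      simp
    | succ n ih =>
      intro hn
      have h3 := ih (by omega)
      have h4 := h1 ⟨n, by omega⟩
      have h5 : (⟨n, by omega⟩ : Fin (k + 1)) + 1 = ⟨n + 1, hn⟩ := by
        apply Fin.ext
        rw [Fin.val_add_one_of_lt]
        rw [Fin.lt_def]
        simp only [Fin.val_last]
        omega
      rw [h5, h3] at h4
      rw [h4]
      rcases Nat.mod_two_eq_zero_or_one n with h7 | h7
      · have h8 : (n + 1) % 2 = 1 := by omega
        rw [h7, h8]
        cases c (x 0) <;> simp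
      · have h8 : (n + 1) % 2 = 0 := by omega
        rw [h7, h8]
        cases c (x 0) <;> simp
  exact fun i => h2 i.val i.isLt

theorem wt_cycle {S : Type} [Fintype S] {A : Matrix S S ℝ} {μ : S → ℝ} {c : S → Bool}
    (h : Rev A μ c) (s : Bool) {k : ℕ} (hk2 : 2 ≤ k) (hk : (k + 1) % 2 = 0)
    (x : Fin (k + 1) → S) :
    wt (SimpleGraph.cycleGraph (k + 1)) (cycSide s k) A μ c x =
      if c (x 0) = s then cyc A x else 0 := by
  by_cases h0 : c (x 0) = s
  swap
  · rw [if_neg h0, wt_neg]
    intro h1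
    exact h0 ((h1 0).trans (cycSide_zero s k))
  rw [if_pos h0]
  have e1 : ∏ i, μ (x (i + 1)) = ∏ i, μ (x i) :=
    Equiv.prod_comp (Equiv.addRight (1 : Fin (k + 1))) (fun i => μ (x i))
  have hprod : (∏ v, μ (x v)) * ∏ e ∈ sideEdges (SimpleGraph.cycleGraph (k + 1)) (cycSide s k),
      A (x e.1) (x e.2) / μ (x e.2) = cyc A x := by
    rw [prod_cycle s hk2 hk (fun u v => A (x u) (x v) / μ (x v)) fun u v => h.ker_symm _ _,
      Finset.prod_div_distrib, e1, mul_div_cancel₀]
    · rfl
    · exact Finset.prod_ne_zero_iff.2 fun i _ => (h.pos _).ne'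
  by_cases hc : cyc A x = 0
  · by_cases hall : ∀ v, c (x v) = cycSide s k v
    · rw [wt_pos hall, hprod]
    · rw [wt_neg hall, hc]
  · have hall : ∀ v, c (x v) = cycSide s k v := by
      intro v
      rw [cyc_sides h x hc v, h0]
    rw [wt_pos hall, hprod]

theorem cycle_noIso {k : ℕ} (hk : 1 ≤ k) :
    ∀ v, ∃ w, (SimpleGraph.cycleGraph (k + 1)).Adj v w :=
  fun v => ⟨v + 1, (cyc_adj hk v (v + 1)).2 (Or.inl rfl)⟩

end Vale.Agent.P050.Ears
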