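import Vale.Agent.P050.R3.H257.Base

/-!
# P050, cycles with ears: the graph operations (new ears, new pendant vertices)
-/

namespace Vale.Agent.P050.Ears

open Finset Matrix Vale.Agent.P050.Lev

section general

variable {S : Type} [Fintype S] {A : Matrix S S ℝ} {μ : S → ℝ} {c : S → Bool}

theorem Rev.ker_symm (h : Rev A μ c) (u v : S) : A u v / μ v = A v u / μ u := by
  have h1 := h.rev u v
  have h2 := (h.pos u).ne'
  have h3 := (h.pos v).ne'
  rw [div_eq_div_iff h3 h2]
  linarith

open Classical in
theorem prod_sideEdges {V : Type} [Fintype V] (H : SimpleGraph V) (side : V → Bool)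
    (f : V → V → ℝ) :
    ∏ e ∈ sideEdges H side, f e.1 e.2 =
      ∏ u, ∏ v, if H.Adj u v ∧ side u = false ∧ side v = true then f u v else 1 := by
  unfold sideEdges
  rw [Finset.prod_filter, ← Finset.univ_product_univ, Finset.prod_product]

open Classical in
/-- the product of a symmetric function over the two directions -/
theorem two_dir {V : Type} (H : SimpleGraph V) (side : V → Bool)
    (hp : ∀ u v, H.Adj u v → side u ≠ side v) (f : V → V → ℝ) (hf : ∀ u v, f u v = f v u)
    (u v : V) :
    (if H.Adj u v ∧ side u = false ∧ side v = true then f u v else 1) *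
      (if H.Adj v u ∧ side v = false ∧ side u = true then f v u else 1) =
      if H.Adj u v then f u v else 1 := by
  by_cases h : H.Adj u v
  · have h2 := hp u v h
    have h3 : H.Adj v u := h.symm
    rw [if_pos h]
    cases hu : side u <;> cases hv : side v
    · exact absurd (hu.trans hv.symm) h2
    · simp [h]
    · simp [h3, hf v u]
    · exact absurd (hu.trans hv.symm) h2
  · have h3 : ¬ H.Adj v u := fun h4 => h h4.symm
    simp [h, h3]

end general

/-! ### walks with given ends -/

section walk

variable {S : Type} [Fintype S] [DecidableEq S]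

/-- the weight of the walk `u, z 0, …, z (k - 1), w` -/
def earW (A : Matrix S S ℝ) : (k : ℕ) → S → (Fin k → S) → S → ℝ
  | 0, u, _, w => A u w
  | k + 1, u, z, w => A u (z 0) * earW A k (z 0) (Fin.tail z) w

omit [DecidableEq S] in
theorem sum_fin_cons {k : ℕ} (F : (Fin (k + 1) → S) → ℝ) :
    ∑ z : Fin (k + 1) → S, F z = ∑ a : S, ∑ z : Fin k → S, F (Fin.cons a z) := by
  rw [← (Fin.consEquiv fun _ : Fin (k + 1) => S).sum_comp, Fintype.sum_prod_type]
  rfl

theorem earW_sum (A : Matrix S S ℝ) (k : ℕ) (u w : S) :
    ∑ z : Fin k → S, earW A k u z w = (A ^ (k + 1)) u w := by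
  induction k generalizing u with
  | zero => simp [earW]
  | succ k ih =>
    rw [sum_fin_cons, pow_succ', Matrix.mul_apply]
    refine Finset.sum_congr rfl fun a _ => ?_
    rw [← ih a, Finset.mul_sum]
    refine Finset.sum_congr rfl fun z _ => ?_
    simp [earW]

omit [Fintype S] [DecidableEq S] in
theorem earW_prod (A : Matrix S S ℝ) (k : ℕ) (u : S) (z : Fin (k + 1) → S) (w : S) :
    earW A (k + 1) u z w =
      A u (z 0) * (∏ i : Fin k, A (z i.castSucc) (z i.succ)) * A (z (Fin.last k)) w := by
  induction k generalizing u with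
  | zero => simp [earW]
  | succ k ih =>
    rw [earW, ih, Fin.prod_univ_succ]
    simp only [Fin.tail, Fin.castSucc_zero, Fin.succ_last, ← Fin.succ_castSucc]
    ring

omit [DecidableEq S] in
theorem earW_side {A : Matrix S S ℝ} {μ : S → ℝ} {c : S → Bool} (h : Rev A μ c) (k : ℕ) (u : S)
    (z : Fin k → S) (w : S) (hz : earW A k u z w ≠ 0) (i : Fin k) :
    c (z i) = xor (c u) (decide (i.val % 2 = 0)) := by
  induction k generalizing u with
  | zero => exact i.elim0
  | succ k ih =>
    rw [earW] at hz
    have h1 : A u (z 0) ≠ 0 := left_ne_zero_of_mul hz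
    have h2 : earW A k (z 0) (Fin.tail z) w ≠ 0 := right_ne_zero_of_mul hz
    have h3 : c u ≠ c (z 0) := fun h4 => h1 (h.alt _ _ h4)
    refine Fin.cases ?_ (fun j => ?_) i
    · simp only [Fin.val_zero, Nat.zero_mod, decide_true, Bool.xor_true]
      cases hu : c u <;> cases hv : c (z 0) <;> simp_all
    · have h4 := ih (z 0) (Fin.tail z) h2 j
      simp only [Fin.tail] at h4
      rw [h4]
      have h5 : c (z 0) = !c u := by
        cases hu : c u <;> cases hv : c (z 0) <;> simp_all
      rw [h5, Fin.val_succ]
      have h6 : decide ((j.val + 1) % 2 = 0) = !decide (j.val % 2 = 0) := by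
        rcases Nat.mod_two_eq_zero_or_one j.val with h7 | h7
        · have h8 : (j.val + 1) % 2 = 1 := by omega
          simp [h7, h8]
        · have h8 : (j.val + 1) % 2 = 0 := by omega
          simp [h7, h8]
      rw [h6]
      cases c u <;> cases decide (j.val % 2 = 0) <;> rfl

end walk

/-! ### the new ear -/

section ear

variable {V : Type} (H : SimpleGraph V) (side : V → Bool) (a b : V) (k : ℕ)

theorem earSide_proper (hp : ∀ u v, H.Adj u v → side u ≠ side v)
    (hs : side b = xor (side a) (decide (k % 2 = 0))) :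
    ∀ x y, (addEar H a b k).Adj x y →
      earSide side (side a) k x ≠ earSide side (side a) k y := by
  have h1 : ∀ (u : V) (i : Fin k), ((u = a ∧ i.val = 0) ∨ (u = b ∧ i.val + 1 = k)) →
      side u ≠ xor (side a) (decide (i.val % 2 = 0)) := by
    rintro u i (⟨rfl, hi⟩ | ⟨rfl, hi⟩)
    · rw [hi]
      cases side u <;> simp
    · have hk2 : k % 2 = (i.val + 1) % 2 := by rw [hi]
      rw [hs, hk2]
      rcases Nat.mod_two_eq_zero_or_one i.val with h7 | h7
      · have h8 : (i.val + 1) % 2 = 1 := by omega
        rw [h7, h8]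
        cases side a <;> simp
      · have h8 : (i.val + 1) % 2 = 0 := by omega
        rw [h7, h8]
        cases side a <;> simp
  have h2 : ∀ i j : Fin k, i.val + 1 = j.val →
      xor (side a) (decide (i.val % 2 = 0)) ≠ xor (side a) (decide (j.val % 2 = 0)) := by
    intro i j hij
    rw [← hij]
    rcases Nat.mod_two_eq_zero_or_one i.val with h7 | h7
    · have h8 : (i.val + 1) % 2 = 1 := by omega
      rw [h7, h8]
      cases side a <;> simp
    · have h8 : (i.val + 1) % 2 = 0 := by omega
      rw [h7, h8]
      cases side a <;> simp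
  rintro (u | i) (v | j) h
  · exact hp u v h
  · exact h1 u j h
  · exact (h1 v i h).symm
  · rcases h with h | h
    · exact h2 i j h
    · exact (h2 j i h).symm

open Classical in
theorem prod_addEar [Fintype V] (k' : ℕ) (hk : k = k' + 1)
    (hp : ∀ u v, H.Adj u v → side u ≠ side v)
    (hab : k = 1 → a ≠ b) (hs : side b = xor (side a) (decide (k % 2 = 0)))
    (f : V ⊕ Fin k → V ⊕ Fin k → ℝ) (hf : ∀ x y, f x y = f y x) :
    ∏ e ∈ sideEdges (addEar H a b k) (earSide side (side a) k), f e.1 e.2 =
      (∏ e ∈ sideEdges H side, f (.inl e.1) (.inl e.2)) *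
        (f (.inl a) (.inr ⟨0, by omega⟩) *
          (∏ i : Fin k', f (.inr ⟨i.val, by omega⟩) (.inr ⟨i.val + 1, by omega⟩)) *
            f (.inr ⟨k', by omega⟩) (.inl b)) := by
  subst hk
  have hpp := earSide_proper H side a b (k' + 1) hp hs
  have hdir := two_dir (addEar H a b (k' + 1)) (earSide side (side a) (k' + 1)) hpp f hf
  rw [prod_sideEdges, prod_sideEdges H side (fun u v => f (.inl u) (.inl v))]
  rw [Fintype.prod_sum_type]
  simp only [Fintype.prod_sum_type]
  rw [Finset.prod_mul_distrib, Finset.prod_mul_distrib]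
  have hll : (∏ u : V, ∏ v : V, if (addEar H a b (k' + 1)).Adj (.inl u) (.inl v) ∧
      earSide side (side a) (k' + 1) (.inl u) = false ∧
        earSide side (side a) (k' + 1) (.inl v) = true then f (.inl u) (.inl v) else 1) =
      ∏ u : V, ∏ v : V, if H.Adj u v ∧ side u = false ∧ side v = true then
        f (.inl u) (.inl v) else 1 := by
    refine Finset.prod_congr rfl fun u _ => Finset.prod_congr rfl fun v _ => ?_
    exact if_congr Iff.rfl rfl rfl
  have hlr : (∏ u : V, ∏ i : Fin (k' + 1), if (addEar H a b (k' + 1)).Adj (.inl u) (.inr i) ∧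
      earSide side (side a) (k' + 1) (.inl u) = false ∧
        earSide side (side a) (k' + 1) (.inr i) = true then f (.inl u) (.inr i) else 1) *
      (∏ i : Fin (k' + 1), ∏ u : V, if (addEar H a b (k' + 1)).Adj (.inr i) (.inl u) ∧
      earSide side (side a) (k' + 1) (.inr i) = false ∧
        earSide side (side a) (k' + 1) (.inl u) = true then f (.inr i) (.inl u) else 1) =
      f (.inl a) (.inr 0) * f (.inr (Fin.last k')) (.inl b) := by
    rw [Finset.prod_comm (s := (univ : Finset (Fin (k' + 1)))), ← Finset.prod_mul_distrib]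
    simp only [← Finset.prod_mul_distrib]
    simp only [hdir]
    have h1 : ∀ (u : V) (i : Fin (k' + 1)),
        (if (addEar H a b (k' + 1)).Adj (.inl u) (.inr i) then f (.inl u) (.inr i) else 1) =
        (if u = a ∧ i = 0 then f (.inl u) (.inr i) else 1) *
          (if u = b ∧ i = Fin.last k' then f (.inl u) (.inr i) else 1) := by
      intro u i
      have e1 : (u = a ∧ i.val = 0) ↔ (u = a ∧ i = 0) := by
        rw [Fin.ext_iff, Fin.val_zero]
      have e2 : (u = b ∧ i.val + 1 = k' + 1) ↔ (u = b ∧ i = Fin.last k') := by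
        rw [Fin.ext_iff, Fin.val_last, add_left_inj]
      have e3 : (addEar H a b (k' + 1)).Adj (.inl u) (.inr i) ↔
          ((u = a ∧ i = 0) ∨ (u = b ∧ i = Fin.last k')) := by
        rw [← e1, ← e2]
        exact Iff.rfl
      by_cases h3 : u = a ∧ i = 0
      · by_cases h4 : u = b ∧ i = Fin.last k'
        · exfalso
          have h5 : (0 : Fin (k' + 1)) = Fin.last k' := h3.2.symm.trans h4.2
          have h6 : k' = 0 := by
            have := congrArg Fin.val h5
            simpa using this.symm
          exact hab (by omega) (h3.1.symm.trans h4.1)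
        · rw [if_pos (e3.2 (Or.inl h3)), if_pos h3, if_neg h4, mul_one]
      · by_cases h4 : u = b ∧ i = Fin.last k'
        · rw [if_pos (e3.2 (Or.inr h4)), if_neg h3, if_pos h4, one_mul]
        · rw [if_neg (fun h5 => (e3.1 h5).elim h3 h4), if_neg h3, if_neg h4, one_mul]
    simp only [h1, Finset.prod_mul_distrib]
    congr 1
    · rw [Finset.prod_eq_single a, Finset.prod_eq_single (0 : Fin (k' + 1))]
      · rw [if_pos ⟨rfl, rfl⟩]
      · intro i _ hi
        rw [if_neg fun h3 => hi h3.2]
      · intro h3
        exact absurd (mem_univ _) h3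
      · intro u _ hu
        exact Finset.prod_eq_one fun i _ => if_neg fun h3 => hu h3.1
      · intro h3
        exact absurd (mem_univ _) h3
    · rw [Finset.prod_eq_single b, Finset.prod_eq_single (Fin.last k')]
      · rw [if_pos ⟨rfl, rfl⟩, hf]
      · intro i _ hi
        rw [if_neg fun h3 => hi h3.2]
      · intro h3
        exact absurd (mem_univ _) h3
      · intro u _ hu
        exact Finset.prod_eq_one fun i _ => if_neg fun h3 => hu h3.1
      · intro h3
        exact absurd (mem_univ _) h3
  have hrr : (∏ i : Fin (k' + 1), ∏ j : Fin (k' + 1),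
      if (addEar H a b (k' + 1)).Adj (.inr i) (.inr j) ∧
      earSide side (side a) (k' + 1) (.inr i) = false ∧
        earSide side (side a) (k' + 1) (.inr j) = true then f (.inr i) (.inr j) else 1) =
      ∏ i : Fin k', f (.inr i.castSucc) (.inr i.succ) := by
    set σ := earSide side (side a) (k' + 1) with hσ
    -- split by direction
    have h1 : ∀ i j : Fin (k' + 1), (if (addEar H a b (k' + 1)).Adj (.inr i) (.inr j) ∧
        σ (.inr i) = false ∧ σ (.inr j) = true then f (.inr i) (.inr j) else 1) =
        (if i.val + 1 = j.val then (if σ (.inr i) = false ∧ σ (.inr j) = true then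
          f (.inr i) (.inr j) else 1) else 1) *
        (if j.val + 1 = i.val then (if σ (.inr i) = false ∧ σ (.inr j) = true then
          f (.inr i) (.inr j) else 1) else 1) := by
      intro i j
      have e3 : (addEar H a b (k' + 1)).Adj (.inr i) (.inr j) ↔
          (i.val + 1 = j.val ∨ j.val + 1 = i.val) := Iff.rfl
      by_cases h4 : i.val + 1 = j.val
      · have h5 : ¬ j.val + 1 = i.val := by omega
        simp only [e3, h4, h5, or_false, true_and, if_true, if_false, mul_one]
      · by_cases h5 : j.val + 1 = i.val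
        · simp only [e3, h4, h5, or_true, true_and, if_true, if_false, one_mul]
        · simp only [e3, h4, h5, or_false, false_and, if_false, one_mul]
    simp only [h1, Finset.prod_mul_distrib]
    have h2 : ∀ F : Fin (k' + 1) → Fin (k' + 1) → ℝ, (∏ i : Fin (k' + 1), ∏ j : Fin (k' + 1),
        if i.val + 1 = j.val then F i j else 1) = ∏ i : Fin k', F i.castSucc i.succ := by
      intro F
      rw [Fin.prod_univ_castSucc]
      have h3 : (∏ j : Fin (k' + 1), if (Fin.last k').val + 1 = j.val then
          F (Fin.last k') j else 1) = 1 := by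
        refine Finset.prod_eq_one fun j _ => if_neg ?_
        have := j.isLt
        rw [Fin.val_last]
        omega
      rw [h3, mul_one]
      refine Finset.prod_congr rfl fun i _ => ?_
      rw [Finset.prod_eq_single i.succ]
      · rw [if_pos (by simp)]
      · intro j _ hj
        rw [if_neg]
        intro h4
        exact hj (Fin.ext (by rw [Fin.val_succ]; simpa using h4.symm))
      · intro h3
        exact absurd (mem_univ _) h3
    rw [h2 fun i j => if σ (.inr i) = false ∧ σ (.inr j) = true then
      f (.inr i) (.inr j) else 1]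
    rw [Finset.prod_comm, h2 fun j i => if σ (.inr i) = false ∧ σ (.inr j) = true then
      f (.inr i) (.inr j) else 1, ← Finset.prod_mul_distrib]
    refine Finset.prod_congr rfl fun i _ => ?_
    have h3 := hdir (.inr i.castSucc) (.inr i.succ)
    have h4 : (addEar H a b (k' + 1)).Adj (.inr i.castSucc) (.inr i.succ) :=
      Or.inl (by simp)
    have h5 : (addEar H a b (k' + 1)).Adj (.inr i.succ) (.inr i.castSucc) := h4.symm
    rw [if_pos h4] at h3
    refine Eq.trans ?_ h3
    congr 1
    · exact if_congr ⟨fun h6 => ⟨h4, h6⟩, fun h6 => h6.2⟩ rfl rfl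
    · exact if_congr ⟨fun h6 => ⟨h5, h6⟩, fun h6 => h6.2⟩ rfl rfl
  rw [hll, hrr]
  have e0 : (⟨0, by omega⟩ : Fin (k' + 1)) = 0 := rfl
  have e1 : (⟨k', by omega⟩ : Fin (k' + 1)) = Fin.last k' := rfl
  have e2 : ∀ i : Fin k', (⟨i.val, by omega⟩ : Fin (k' + 1)) = i.castSucc := fun i => rfl
  have e3 : ∀ i : Fin k', (⟨i.val + 1, by omega⟩ : Fin (k' + 1)) = i.succ := fun i => rfl
  simp only [e0, e1, e2, e3]
  calc _ = (∏ u : V, ∏ v : V, if H.Adj u v ∧ side u = false ∧ side v = true then
        f (.inl u) (.inl v) else 1) *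
        ((∏ u : V, ∏ i : Fin (k' + 1), if (addEar H a b (k' + 1)).Adj (.inl u) (.inr i) ∧
      earSide side (side a) (k' + 1) (.inl u) = false ∧
        earSide side (side a) (k' + 1) (.inr i) = true then f (.inl u) (.inr i) else 1) *
      (∏ i : Fin (k' + 1), ∏ u : V, if (addEar H a b (k' + 1)).Adj (.inr i) (.inl u) ∧
      earSide side (side a) (k' + 1) (.inr i) = false ∧
        earSide side (side a) (k' + 1) (.inl u) = true then f (.inr i) (.inl u) else 1)) *
        ∏ i : Fin k', f (.inr i.castSucc) (.inr i.succ) := by ring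
    _ = _ := by rw [hlr]; ring

end ear

/-! ### the weights of maps -/

section weights

variable {V S : Type} [Fintype V] [Fintype S] {A : Matrix S S ℝ} {μ : S → ℝ}
  {c : S → Bool}

omit [Fintype S] in
theorem wt_pos {H : SimpleGraph V} {side : V → Bool} {z : V → S}
    (hz : ∀ v, c (z v) = side v) : wt H side A μ c z =
      (∏ v, μ (z v)) * ∏ e ∈ sideEdges H side, A (z e.1) (z e.2) / μ (z e.2) := by
  classical
  unfold wt
  exact if_pos hz

omit [Fintype S] in
theorem wt_neg {H : SimpleGraph V} {side : V → Bool} {z : V → S}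
    (hz : ¬ ∀ v, c (z v) = side v) : wt H side A μ c z = 0 := by
  classical
  unfold wt
  exact if_neg hz

theorem wt_addEar (h : Rev A μ c) (H : SimpleGraph V) (side : V → Bool) (a b : V) (k : ℕ)
    (hp : ∀ u v, H.Adj u v → side u ≠ side v) (hk : 1 ≤ k) (hab : k = 1 → a ≠ b)
    (hs : side b = xor (side a) (decide (k % 2 = 0))) (z : V → S) (w : Fin k → S) :
    wt (addEar H a b k) (earSide side (side a) k) A μ c (Sum.elim z w) =
      wt H side A μ c z * (earW A k (z a) w (z b) / μ (z b)) := by
  obtain ⟨k', rfl⟩ : ∃ k', k = k' + 1 := ⟨k - 1, by omega⟩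
  by_cases hz : ∀ v, c (z v) = side v
  swap
  · rw [wt_neg hz, zero_mul, wt_neg]
    exact fun h1 => hz fun v => h1 (.inl v)
  by_cases hw : earW A (k' + 1) (z a) w (z b) = 0
  · -- a step of weight zero, or all sides correct
    rw [hw, zero_div, mul_zero]
    by_cases hall : ∀ x, c (Sum.elim z w x) = earSide side (side a) (k' + 1) x
    swap
    · exact wt_neg hall
    rw [wt_pos hall]
    rw [prod_addEar H side a b (k' + 1) k' rfl hp hab hs
      (fun x y => A (Sum.elim z w x) (Sum.elim z w y) / μ (Sum.elim z w y))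
      (fun x y => h.ker_symm _ _)]
    rw [earW_prod] at hw
    simp only [Sum.elim_inl, Sum.elim_inr]
    have h0 : (A (z a) (w ⟨0, by omega⟩) / μ (w ⟨0, by omega⟩) *
        (∏ i : Fin k', A (w ⟨i.val, by omega⟩) (w ⟨i.val + 1, by omega⟩) /
          μ (w ⟨i.val + 1, by omega⟩)) * (A (w ⟨k', by omega⟩) (z b) / μ (z b))) = 0 := by
      rw [Finset.prod_div_distrib]
      have : A (z a) (w 0) * (∏ i : Fin k', A (w i.castSucc) (w i.succ)) *
          A (w (Fin.last k')) (z b) = 0 := hw
      have e1 : (∏ i : Fin k', A (w ⟨i.val, by omega⟩) (w ⟨i.val + 1, by omega⟩)) =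
          ∏ i : Fin k', A (w i.castSucc) (w i.succ) := rfl
      rw [e1]
      change (A (z a) (w 0) / _ * (_ / _) * (A (w (Fin.last k')) (z b) / _)) = 0
      rw [div_mul_div_comm, div_mul_div_comm, this, zero_div]
    rw [h0, mul_zero, mul_zero]
  · have hall : ∀ x, c (Sum.elim z w x) = earSide side (side a) (k' + 1) x := by
      rintro (v | i)
      · exact hz v
      · have := earW_side h (k' + 1) (z a) w (z b) hw i
        rw [hz a] at this
        exact this
    rw [wt_pos hall, wt_pos hz]
    rw [prod_addEar H side a b (k' + 1) k' rfl hp hab hs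
      (fun x y => A (Sum.elim z w x) (Sum.elim z w y) / μ (Sum.elim z w y))
      (fun x y => h.ker_symm _ _)]
    rw [Fintype.prod_sum_type, earW_prod]
    simp only [Sum.elim_inl, Sum.elim_inr]
    have e1 : (∏ i : Fin k', A (w ⟨i.val, by omega⟩) (w ⟨i.val + 1, by omega⟩) /
        μ (w ⟨i.val + 1, by omega⟩)) = (∏ i : Fin k', A (w i.castSucc) (w i.succ)) /
          ∏ i : Fin k', μ (w i.succ) := by
      rw [← Finset.prod_div_distrib]
      rfl
    rw [e1, Fin.prod_univ_succ (fun i => μ (w i))]
    have e2 : w ⟨0, by omega⟩ = w 0 := rfl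
    have e3 : w ⟨k', by omega⟩ = w (Fin.last k') := rfl
    rw [e2, e3]
    have p0 := (h.pos (w 0)).ne'
    have pb := (h.pos (z b)).ne'
    have p1 : (∏ i : Fin k', μ (w i.succ)) ≠ 0 :=
      Finset.prod_ne_zero_iff.2 fun i _ => (h.pos _).ne'
    field_simp

theorem sum_addEar [DecidableEq V] [DecidableEq S] (h : Rev A μ c) (H : SimpleGraph V)
    (side : V → Bool) (a b : V) (k : ℕ)
    (hp : ∀ u v, H.Adj u v → side u ≠ side v) (hk : 1 ≤ k) (hab : k = 1 → a ≠ b)
    (hs : side b = xor (side a) (decide (k % 2 = 0))) (F : (V → S) → ℝ) :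
    ∑ z : V ⊕ Fin k → S, wt (addEar H a b k) (earSide side (side a) k) A μ c z *
        F (z ∘ Sum.inl) =
      ∑ z : V → S, wt H side A μ c z * kap A μ (k + 1) (z a) (z b) * F z := by
  rw [← (Equiv.sumArrowEquivProdArrow V (Fin k) S).symm.sum_comp, Fintype.sum_prod_type]
  refine Finset.sum_congr rfl fun z _ => ?_
  have h1 : ∀ w : Fin k → S,
      (Equiv.sumArrowEquivProdArrow V (Fin k) S).symm (z, w) = Sum.elim z w := fun w => rfl
  simp only [h1, Sum.elim_comp_inl]
  simp only [wt_addEar h H side a b k hp hk hab hs]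
  rw [← Finset.sum_mul, ← Finset.mul_sum, ← Finset.sum_div, earW_sum]
  rfl

end weights

/-! ### a pendant edge -/

section pendant

variable {V : Type} (H : SimpleGraph V) (side : V → Bool) (a : V)

theorem pendantSide_proper (hp : ∀ u v, H.Adj u v → side u ≠ side v) :
    ∀ x y, (addPendant H a).Adj x y → pendantSide side (side a) x ≠ pendantSide side (side a) y := by
  rintro (u | i) (v | j) h
  · exact hp u v h
  · have h1 : u = a := h
    rw [h1]
    change side a ≠ !side a
    cases side a <;> simp
  · have h1 : v = a := h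
    rw [h1]
    change (!side a) ≠ side a
    cases side a <;> simp
  · exact absurd h id

open Classical in
theorem prod_addPendant [Fintype V] (hp : ∀ u v, H.Adj u v → side u ≠ side v)
    (f : V ⊕ Unit → V ⊕ Unit → ℝ) (hf : ∀ x y, f x y = f y x) :
    ∏ e ∈ sideEdges (addPendant H a) (pendantSide side (side a)), f e.1 e.2 =
      (∏ e ∈ sideEdges H side, f (.inl e.1) (.inl e.2)) * f (.inl a) (.inr ()) := by
  have hpp := pendantSide_proper H side a hp
  have hdir := two_dir (addPendant H a) (pendantSide side (side a)) hpp f hf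
  rw [prod_sideEdges, prod_sideEdges H side (fun u v => f (.inl u) (.inl v))]
  rw [Fintype.prod_sum_type]
  simp only [Fintype.prod_sum_type, Fintype.prod_unique]
  rw [Finset.prod_mul_distrib]
  have hll : (∏ u : V, ∏ v : V, if (addPendant H a).Adj (.inl u) (.inl v) ∧
      pendantSide side (side a) (.inl u) = false ∧
        pendantSide side (side a) (.inl v) = true then f (.inl u) (.inl v) else 1) =
      ∏ u : V, ∏ v : V, if H.Adj u v ∧ side u = false ∧ side v = true then
        f (.inl u) (.inl v) else 1 := by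
    refine Finset.prod_congr rfl fun u _ => Finset.prod_congr rfl fun v _ => ?_
    exact if_congr Iff.rfl rfl rfl
  have hrr : (if (addPendant H a).Adj (.inr default) (.inr default) ∧
      pendantSide side (side a) (.inr default) = false ∧
        pendantSide side (side a) (.inr default) = true then
          f (.inr default) (.inr default) else 1) = 1 :=
    if_neg fun h => h.1
  have hlr : (∏ u : V, if (addPendant H a).Adj (.inl u) (.inr default) ∧
      pendantSide side (side a) (.inl u) = false ∧
        pendantSide side (side a) (.inr default) = true then f (.inl u) (.inr default) else 1) *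
      (∏ u : V, if (addPendant H a).Adj (.inr default) (.inl u) ∧
      pendantSide side (side a) (.inr default) = false ∧
        pendantSide side (side a) (.inl u) = true then f (.inr default) (.inl u) else 1) =
      f (.inl a) (.inr ()) := by
    rw [← Finset.prod_mul_distrib]
    simp only [hdir]
    rw [Finset.prod_eq_single a]
    · exact if_pos rfl
    · intro u _ hu
      exact if_neg fun h => hu h
    · intro h3
      exact absurd (mem_univ _) h3
  rw [hll, hrr, mul_one, mul_assoc, hlr]

variable {S : Type} [Fintype S] {A : Matrix S S ℝ} {μ : S → ℝ} {c : S → Bool}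

theorem wt_addPendant [Fintype V] (h : Rev A μ c) (hp : ∀ u v, H.Adj u v → side u ≠ side v)
    (z : V → S) (w : Unit → S) :
    wt (addPendant H a) (pendantSide side (side a)) A μ c (Sum.elim z w) =
      wt H side A μ c z * A (z a) (w ()) := by
  by_cases hz : ∀ v, c (z v) = side v
  swap
  · rw [wt_neg hz, zero_mul, wt_neg]
    exact fun h1 => hz fun v => h1 (.inl v)
  by_cases hw : c (w ()) = !side a
  swap
  · have h1 : A (z a) (w ()) = 0 := by
      refine h.alt _ _ ?_
      rw [hz a]
      cases h2 : side a <;> cases h3 : c (w ()) <;> simp_all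
    rw [h1, mul_zero, wt_neg]
    intro h2
    exact hw (h2 (.inr ()))
  have hall : ∀ x, c (Sum.elim z w x) = pendantSide side (side a) x := by
    rintro (v | i)
    · exact hz v
    · exact hw
  rw [wt_pos hall, wt_pos hz]
  rw [prod_addPendant H side a hp
    (fun x y => A (Sum.elim z w x) (Sum.elim z w y) / μ (Sum.elim z w y))
    (fun x y => h.ker_symm _ _)]
  rw [Fintype.prod_sum_type]
  simp only [Sum.elim_inl, Sum.elim_inr, Fintype.prod_unique]
  have p0 := (h.pos (w ())).ne'
  change (∏ v, μ (z v)) * μ (w ()) * _ = _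
  field_simp

theorem sum_addPendant [Fintype V] [DecidableEq V] (h : Rev A μ c)
    (hp : ∀ u v, H.Adj u v → side u ≠ side v) (F : (V → S) → ℝ) :
    ∑ z : V ⊕ Unit → S, wt (addPendant H a) (pendantSide side (side a)) A μ c z *
        F (z ∘ Sum.inl) = ∑ z : V → S, wt H side A μ c z * F z := by
  rw [← (Equiv.sumArrowEquivProdArrow V Unit S).symm.sum_comp, Fintype.sum_prod_type]
  refine Finset.sum_congr rfl fun z _ => ?_
  have h1 : ∀ w : Unit → S,
      (Equiv.sumArrowEquivProdArrow V Unit S).symm (z, w) = Sum.elim z w := fun w => rfl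
  simp only [h1, Sum.elim_comp_inl]
  simp only [wt_addPendant H side a h hp]
  rw [← Finset.sum_mul, ← Finset.mul_sum, ← (Equiv.funUnique Unit S).symm.sum_comp]
  have h3 : ∀ x : S, ((Equiv.funUnique Unit S).symm x) () = x := fun x => rfl
  simp only [h3]
  rw [h.row, mul_one]

end pendant

/-! ### isomorphisms -/

section iso

variable {V V' S : Type} [Fintype V] [Fintype V'] {A : Matrix S S ℝ}
  {μ : S → ℝ} {c : S → Bool}

theorem wt_iso {H : SimpleGraph V} {H' : SimpleGraph V'} (e : H ≃g H') (side : V' → Bool)
    (z : V' → S) : wt H (side ∘ e) A μ c (z ∘ e) = wt H' side A μ c z := by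
  classical
  have hc : (∀ v, c ((z ∘ e) v) = (side ∘ e) v) ↔ ∀ v, c (z v) = side v := by
    constructor
    · intro h v
      have := h (e.symm v)
      simpa using this
    · intro h v
      exact h (e v)
  by_cases h : ∀ v, c (z v) = side v
  · rw [wt_pos h, wt_pos (hc.2 h)]
    congr 1
    · exact Equiv.prod_comp e.toEquiv fun v => μ (z v)
    · rw [prod_sideEdges H (side ∘ e) (fun u v => A ((z ∘ e) u) ((z ∘ e) v) / μ ((z ∘ e) v)),
        prod_sideEdges H' side (fun u v => A (z u) (z v) / μ (z v)),
        ← Equiv.prod_comp e.toEquiv]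
      refine Finset.prod_congr rfl fun u _ => ?_
      rw [← Equiv.prod_comp e.toEquiv]
      refine Finset.prod_congr rfl fun v _ => ?_
      refine if_congr ?_ rfl rfl
      exact and_congr (e.map_rel_iff (a := u) (b := v)).symm Iff.rfl
  · rw [wt_neg h, wt_neg fun h1 => h (hc.1 h1)]

theorem sum_iso [Fintype S] [DecidableEq V] [DecidableEq V'] {H : SimpleGraph V}
    {H' : SimpleGraph V'} (e : H ≃g H') (side : V' → Bool) (F : (V → S) → ℝ) :
    ∑ z : V' → S, wt H' side A μ c z * F (z ∘ e) =
      ∑ z : V → S, wt H (side ∘ e) A μ c z * F z := by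
  rw [← (e.toEquiv.symm.arrowCongr (Equiv.refl S)).sum_comp]
  refine Finset.sum_congr rfl fun g _ => ?_
  have h1 : (e.toEquiv.symm.arrowCongr (Equiv.refl S)) g = g ∘ e := by
    funext x
    rfl
  rw [h1, wt_iso]

end iso

/-! ### isolated vertices -/

theorem addEar_noIso {V : Type} {H : SimpleGraph V} (hH : ∀ v, ∃ w, H.Adj v w) (a b : V)
    (k : ℕ) : ∀ x, ∃ y, (addEar H a b k).Adj x y := by
  rintro (v | i)
  · obtain ⟨w, hw⟩ := hH v
    exact ⟨Sum.inl w, hw⟩
  · by_cases h : i.val = 0
    · exact ⟨Sum.inl a, Or.inl ⟨rfl, h⟩⟩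
    · exact ⟨Sum.inr ⟨i.val - 1, by have := i.isLt; omega⟩, Or.inr (by
        show i.val - 1 + 1 = i.val
        omega)⟩

theorem addPendant_noIso {V : Type} {H : SimpleGraph V} (hH : ∀ v, ∃ w, H.Adj v w) (v : V) :
    ∀ x, ∃ y, (addPendant H v).Adj x y := by
  rintro (u | i)
  · obtain ⟨w, hw⟩ := hH u
    exact ⟨Sum.inl w, hw⟩
  · exact ⟨Sum.inl v, rfl⟩

theorem iso_noIso {V V' : Type} {H : SimpleGraph V} {H' : SimpleGraph V'} (e : H ≃g H')
    (hH : ∀ v, ∃ w, H.Adj v w) : ∀ v, ∃ w, H'.Adj v w := by
  intro v
  obtain ⟨w, hw⟩ := hH (e.symm v)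
  refine ⟨e w, ?_⟩
  have := e.map_rel_iff.2 hw
  simpa using this

end Vale.Agent.P050.Ears
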