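import Vale.Agent.P050.R3.H149.Cycle
import Vale.Agent.P050.R3.H257.Walk

/-!
# P050, cycles with ears: the pointwise weights in the form used by the final file
-/

namespace Vale.Agent.P050.Ears

open Finset Matrix Vale.Agent.P050.Lev

theorem earW_eq_PW {S : Type} (A : Matrix S S ℝ) (k : ℕ) (u : S) (z : Fin k → S) (w : S) :
    earW A k u z w = H257.PW A k u z w := by
  induction k generalizing u with
  | zero => rfl
  | succ k ih => rw [earW, H257.PW, ih]

theorem wt_addEar_PW {V S : Type} [Fintype V] [Fintype S] {A : Matrix S S ℝ} {μ : S → ℝ}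
    {c : S → Bool} (h : Rev A μ c) (H : SimpleGraph V) (side : V → Bool) (a b : V) (k : ℕ)
    (hp : ∀ u v, H.Adj u v → side u ≠ side v) (hk : 1 ≤ k) (hab : k = 1 → a ≠ b)
    (hs : side b = xor (side a) (decide (k % 2 = 0))) (z : V ⊕ Fin k → S) :
    wt (addEar H a b k) (earSide side (side a) k) A μ c z =
      wt H side A μ c (z ∘ Sum.inl) *
        (H257.PW A k (z (Sum.inl a)) (z ∘ Sum.inr) (z (Sum.inl b)) / μ (z (Sum.inl b))) := by
  have h1 := wt_addEar h H side a b k hp hk hab hs (z ∘ Sum.inl) (z ∘ Sum.inr)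
  rw [Sum.elim_comp_inl_inr] at h1
  rw [h1, earW_eq_PW]
  rfl

theorem wt_addPendant_pt {V S : Type} [Fintype V] [Fintype S] {A : Matrix S S ℝ} {μ : S → ℝ}
    {c : S → Bool} (h : Rev A μ c) (H : SimpleGraph V) (side : V → Bool) (a : V)
    (hp : ∀ u v, H.Adj u v → side u ≠ side v) (z : V ⊕ Unit → S) :
    wt (addPendant H a) (pendantSide side (side a)) A μ c z =
      wt H side A μ c (z ∘ Sum.inl) * A (z (Sum.inl a)) (z (Sum.inr ())) := by
  have h1 := wt_addPendant H side a h hp (z ∘ Sum.inl) (z ∘ Sum.inr)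
  rw [Sum.elim_comp_inl_inr] at h1
  exact h1

end Vale.Agent.P050.Ears
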