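import Vale.Agent.P050.R3.H257.Base
import Vale.Agent.P050.H149.Red

/-!
# P050: the two-sided Sidorenko inequality from its case of reversible chains
-/

namespace Vale.Agent.P050.Ears

open Finset Matrix Vale.Agent.P050.Lev Vale.Agent.P050.H149

section chain

variable {U : Type} [Fintype U] (m : Bool → U → ℝ) (W : U → U → ℝ)

/-- the states with positive weight, on both sides -/
abbrev St (m : Bool → U → ℝ) : Type := {p : Bool × U // m p.1 p.2 ≠ 0}

/-- the transition matrix -/
def stA (p q : St m) : ℝ :=
  if p.1.1 = false ∧ q.1.1 = true then W p.1.2 q.1.2 * m true q.1.2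
  else if p.1.1 = true ∧ q.1.1 = false then W q.1.2 p.1.2 * m false q.1.2 else 0

open Classical in
theorem sum_St (F : Bool → U → ℝ) (b : Bool) :
    ∑ q : St m, (if q.1.1 = b then F q.1.1 q.1.2 else 0) =
      ∑ y, if m b y ≠ 0 then F b y else 0 := by
  have h1 : ∑ q : St m, (if q.1.1 = b then F q.1.1 q.1.2 else 0) =
      ∑ p ∈ (univ : Finset (Bool × U)).filter (fun p => m p.1 p.2 ≠ 0),
        (if p.1 = b then F p.1 p.2 else 0) := by
    rw [← Finset.sum_subtype_eq_sum_filter]
    simp only [Finset.subtype_univ]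
  rw [h1, Finset.sum_filter, Fintype.sum_prod_type]
  rw [Finset.sum_eq_single b]
  · simp
  · intro b' _ hb'
    refine Finset.sum_eq_zero fun y _ => ?_
    simp [hb']
  · intro h
    exact absurd (mem_univ _) h

open Classical in
theorem rev_st (hm : ∀ b x, 0 ≤ m b x) (hm1 : ∀ b, ∑ x, m b x = 1) (hW : ∀ x y, 0 ≤ W x y)
    (hr : ∀ x, m false x ≠ 0 → ∑ y, m true y * W x y = 1)
    (hc : ∀ y, m true y ≠ 0 → ∑ x, m false x * W x y = 1) :
    Rev (S := St m) (Matrix.of (stA m W)) (fun p => m p.1.1 p.1.2) (fun p => p.1.1) where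
  nonneg := by
    rintro ⟨⟨b, x⟩, hp⟩ ⟨⟨b', y⟩, hq⟩
    simp only [Matrix.of_apply, stA]
    cases b <;> cases b' <;> simp [mul_nonneg, hm, hW]
  rev := by
    rintro ⟨⟨b, x⟩, hp⟩ ⟨⟨b', y⟩, hq⟩
    simp only [Matrix.of_apply, stA]
    cases b <;> cases b' <;> simp <;> ring
  row := by
    rintro ⟨⟨b, x⟩, hp⟩
    cases b
    · have h1 : ∀ q : St m, Matrix.of (stA m W) ⟨(false, x), hp⟩ q =
          if q.1.1 = true then (fun (_ : Bool) y => W x y * m true y) q.1.1 q.1.2 else 0 := by
        rintro ⟨⟨b', y⟩, hq⟩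
        cases b' <;> simp [stA]
      rw [Finset.sum_congr rfl fun q _ => h1 q, sum_St m (fun _ y => W x y * m true y) true,
        ← hr x hp]
      refine Finset.sum_congr rfl fun y _ => ?_
      by_cases h2 : m true y = 0
      · simp [h2]
      · rw [if_pos h2, mul_comm]
    · have h1 : ∀ q : St m, Matrix.of (stA m W) ⟨(true, x), hp⟩ q =
          if q.1.1 = false then (fun (_ : Bool) y => W y x * m false y) q.1.1 q.1.2 else 0 := by
        rintro ⟨⟨b', y⟩, hq⟩
        cases b' <;> simp [stA]
      rw [Finset.sum_congr rfl fun q _ => h1 q, sum_St m (fun _ y => W y x * m false y) false,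
        ← hc x hp]
      refine Finset.sum_congr rfl fun y _ => ?_
      by_cases h2 : m false y = 0
      · simp [h2]
      · rw [if_pos h2, mul_comm]
  pos := fun p => lt_of_le_of_ne (hm _ _) (Ne.symm p.2)
  mass := by
    intro b
    rw [sum_St m (fun b y => m b y) b, ← hm1 b]
    refine Finset.sum_congr rfl fun y _ => ?_
    by_cases h2 : m b y = 0
    · simp [h2]
    · rw [if_pos h2]
  alt := by
    rintro ⟨⟨b, x⟩, hp⟩ ⟨⟨b', y⟩, hq⟩ h
    simp only at h
    subst h
    cases b <;> simp [stA]

end chain

variable {V : Type} [Fintype V] [DecidableEq V]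

/-- **Reduction to reversible chains.** -/
theorem gsid_of_rev {H : SimpleGraph V} {side : V → Bool}
    (hp : ∀ u v, H.Adj u v → side u ≠ side v) (hiso : ∀ v, ∃ w, H.Adj v w)
    (hR : ∀ (S : Type) [Fintype S] [DecidableEq S] (A : Matrix S S ℝ) (μ : S → ℝ)
      (c : S → Bool), Rev A μ c → 1 ≤ ∑ z : V → S, wt H side A μ c z) : GSid H side := by
  classical
  refine ⟨hp, ksid_of_bireg ?_ ?_ ?_⟩
  · intro e he
    simp only [sideEdges, mem_filter, mem_univ, true_and] at he
    exact he.2
  · intro v
    obtain ⟨w, hw⟩ := hiso v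
    have h1 := hp v w hw
    cases hv : side v
    · refine ⟨(v, w), ?_, Or.inl rfl⟩
      simp only [sideEdges, mem_filter, mem_univ, true_and]
      refine ⟨hw, hv, ?_⟩
      cases hw' : side w
      · exact absurd (hv.trans hw'.symm) h1
      · rfl
    · refine ⟨(w, v), ?_, Or.inr rfl⟩
      simp only [sideEdges, mem_filter, mem_univ, true_and]
      refine ⟨hw.symm, ?_, hv⟩
      cases hw' : side w
      · rfl
      · exact absurd (hv.trans hw'.symm) h1
  · intro U _ m W hm hm1 hW hr hc
    refine (hR (St m) _ _ _ (rev_st m W hm hm1 hW hr hc)).trans ?_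
    set F : (V → U) → ℝ := fun z => (∏ v, m (side v) (z v)) *
      ∏ e ∈ sideEdges H side, W (z e.1) (z e.2) with hF
    set T : Finset (V → St m) := univ.filter fun z => ∀ v, (z v).1.1 = side v with hT
    have hF0 : ∀ y, 0 ≤ F y := fun y =>
      mul_nonneg (prod_nonneg fun v _ => hm _ _) (prod_nonneg fun e _ => hW _ _)
    have h1 : ∀ z : V → St m, (∀ v, (z v).1.1 = side v) →
        wt H side (Matrix.of (stA m W)) (fun p => m p.1.1 p.1.2) (fun p => p.1.1) z =
          F (fun v => (z v).1.2) := by
      intro z hz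
      unfold wt
      rw [if_pos hz]
      congr 1
      · refine Finset.prod_congr rfl fun v _ => ?_
        show m (z v).1.1 (z v).1.2 = m (side v) (z v).1.2
        rw [hz v]
      · refine Finset.prod_congr rfl fun e he => ?_
        simp only [sideEdges, mem_filter, mem_univ, true_and] at he
        have e1 : (z e.1).1.1 = false := (hz e.1).trans he.2.1
        have e2 : (z e.2).1.1 = true := (hz e.2).trans he.2.2
        have e3 : m true (z e.2).1.2 ≠ 0 := by
          have := (z e.2).2
          rwa [e2] at this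
        simp only [Matrix.of_apply, stA]
        rw [if_pos ⟨e1, e2⟩, e2]
        field_simp
    have h0 : ∀ z : V → St m, (¬ ∀ v, (z v).1.1 = side v) →
        wt H side (Matrix.of (stA m W)) (fun p => m p.1.1 p.1.2) (fun p => p.1.1) z = 0 := by
      intro z hz
      unfold wt
      exact if_neg hz
    have h2 : ∑ z : V → St m, wt H side (Matrix.of (stA m W)) (fun p => m p.1.1 p.1.2)
        (fun p => p.1.1) z = ∑ z ∈ T, F (fun v => (z v).1.2) := by
      rw [hT, Finset.sum_filter]
      refine Finset.sum_congr rfl fun z _ => ?_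
      by_cases hz : ∀ v, (z v).1.1 = side v
      · rw [if_pos hz, h1 z hz]
      · rw [if_neg hz, h0 z hz]
    rw [h2]
    have hinj : Set.InjOn (fun (z : V → St m) v => (z v).1.2) T := by
      intro z hz z' hz' h
      rw [mem_coe, hT, mem_filter] at hz hz'
      replace hz := hz.2
      replace hz' := hz'.2
      funext v
      apply Subtype.ext
      apply Prod.ext
      · rw [hz v, hz' v]
      · exact congrFun h v
    rw [← Finset.sum_image (f := F) (g := fun (z : V → St m) v => (z v).1.2) hinj]
    exact Finset.sum_le_sum_of_subset_of_nonneg (subset_univ _) fun y _ _ => hF0 y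

end Vale.Agent.P050.Ears
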